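import Vale.Agent.P205F.Patch.Superposition

/-!
# Straightening a vector field of the plane near a point where it does not vanish
-/

namespace Vale.Agent.P205F.Patch

open Set Function Filter MeasureTheory
open scoped ContDiff Topology

/-- The integral of a curve from time zero. -/
noncomputable def prim (v : C(I01, E2)) : C(I01, E2) :=
  ⟨fun t => ∫ s in (0 : ℝ)..(t : ℝ), v (Set.projIcc 0 1 zero_le_one s),
    (intervalIntegral.continuous_primitive
      (fun _ _ => (v.continuous.comp continuous_projIcc).intervalIntegrable _ _) 0).comp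
      continuous_subtype_val⟩

lemma prim_apply (v : C(I01, E2)) (t : I01) :
    prim v t = ∫ s in (0 : ℝ)..(t : ℝ), v (Set.projIcc 0 1 zero_le_one s) := rfl

lemma prim_add (v w : C(I01, E2)) : prim (v + w) = prim v + prim w := by
  ext1 t
  exact intervalIntegral.integral_add ((v.continuous.comp continuous_projIcc).intervalIntegrable _ _)
    ((w.continuous.comp continuous_projIcc).intervalIntegrable _ _)

lemma prim_smul (c : ℝ) (v : C(I01, E2)) : prim (c • v) = c • prim v := by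
  ext1 t
  exact intervalIntegral.integral_smul c _

lemma norm_prim_le (v : C(I01, E2)) : ‖prim v‖ ≤ ‖v‖ := by
  refine (ContinuousMap.norm_le _ (norm_nonneg v)).2 fun t => ?_
  rw [prim_apply]
  refine (intervalIntegral.norm_integral_le_of_norm_le_const fun s _ => v.norm_coe_le_norm _).trans ?_
  rw [sub_zero, abs_of_nonneg t.2.1]
  exact mul_le_of_le_one_right (norm_nonneg v) t.2.2

lemma contDiff_prim : ContDiff ℝ ∞ prim :=
  IsBoundedLinearMap.contDiff ⟨⟨prim_add, prim_smul⟩, 1, one_pos, fun v => by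
    rw [one_mul]; exact norm_prim_le v⟩

/-- The curve solves the integral equation with start `q` and time scale `l`. -/
def IsSol (e : E2 → E2) (q : E2) (l : ℝ) (u : C(I01, E2)) : Prop :=
  ∀ t : I01, u t = q + l • ∫ s in (0 : ℝ)..(t : ℝ), e (u (Set.projIcc 0 1 zero_le_one s))

variable {e : E2 → E2}

lemma IsSol.unique {K : NNReal} (hK : LipschitzWith K e) {q : E2} {l : ℝ} {u v : C(I01, E2)}
    (hl : |l| * K < 1) (hu : IsSol e q l u) (hv : IsSol e q l v) : u = v := by
  have hb : ‖u - v‖ ≤ |l| * K * ‖u - v‖ := by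
    refine (ContinuousMap.norm_le _ (by positivity)).2 fun t => ?_
    have hi : ∀ w : C(I01, E2), IntervalIntegrable
        (fun s => e (w (Set.projIcc 0 1 zero_le_one s))) volume 0 (t : ℝ) := fun w =>
      (hK.continuous.comp (w.continuous.comp continuous_projIcc)).intervalIntegrable _ _
    rw [ContinuousMap.sub_apply, hu t, hv t, add_sub_add_left_eq_sub, ← smul_sub,
      ← intervalIntegral.integral_sub (hi u) (hi v), norm_smul, Real.norm_eq_abs, mul_assoc]
    refine mul_le_mul_of_nonneg_left ?_ (abs_nonneg l)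
    refine (intervalIntegral.norm_integral_le_of_norm_le_const fun s _ =>
      (hK.norm_sub_le _ _).trans (mul_le_mul_of_nonneg_left
        ((u - v).norm_coe_le_norm (Set.projIcc 0 1 zero_le_one s)) K.coe_nonneg)).trans ?_
    rw [sub_zero, abs_of_nonneg t.2.1]
    exact mul_le_of_le_one_right (by positivity) t.2.2
  have : ‖u - v‖ = 0 := le_antisymm (by nlinarith [norm_nonneg (u - v)]) (norm_nonneg _)
  exact sub_eq_zero.1 (norm_eq_zero.1 this)

/-- Restriction of a solution to a shorter time. -/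
lemma IsSol.rescale {q : E2} {L μ : ℝ} {u v : C(I01, E2)} (hμ : μ ∈ Icc (0 : ℝ) 1)
    (hu : IsSol e q L u) (hv : ∀ t : I01, v t = u (Set.projIcc 0 1 zero_le_one (μ * t))) :
    IsSol e q (L * μ) v := by
  intro t
  have hmem : μ * (t : ℝ) ∈ Icc (0 : ℝ) 1 :=
    ⟨mul_nonneg hμ.1 t.2.1, mul_le_one₀ hμ.2 t.2.1 t.2.2⟩
  rw [hv, hu, projIcc_of_mem _ hmem]
  congr 1
  have hint : ∫ s in (0 : ℝ)..(t : ℝ), e (v (Set.projIcc 0 1 zero_le_one s)) =
      ∫ s in (0 : ℝ)..(t : ℝ), e (u (Set.projIcc 0 1 zero_le_one (μ * s))) := by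
    refine intervalIntegral.integral_congr fun s hs => ?_
    rw [uIcc_of_le t.2.1] at hs
    show e (v (Set.projIcc 0 1 zero_le_one s)) = _
    rw [hv, projIcc_of_mem _ (⟨hs.1, hs.2.trans t.2.2⟩ : s ∈ Icc (0 : ℝ) 1)]
  rw [hint, mul_smul]
  congr 1
  have h := intervalIntegral.smul_integral_comp_mul_left
    (f := fun s => e (u (Set.projIcc 0 1 zero_le_one s))) (a := 0) (b := (t : ℝ)) μ
  rw [mul_zero] at h
  exact h.symm

lemma exists_solution_family (he : ContDiff ℝ ∞ e) (hc : HasCompactSupport e) (x₀ : E2) :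
    ∃ φ : E2 × ℝ → C(I01, E2), (∀ t, φ (x₀, 0) t = x₀) ∧ ∀ᶠ q in 𝓝 (x₀, (0 : ℝ)),
      ContDiffAt ℝ ∞ φ q ∧ IsSol e q.1 q.2 (φ q) := by
  have hne : (∞ : WithTop ℕ∞) ≠ 0 := by simp
  let N : C(I01, E2) → C(I01, E2) := fun u => (⟨e, he.continuous⟩ : C(E2, E2)).comp u
  have hN : ContDiff ℝ ∞ N := contDiff_comp e he hc
  let cst : E2 → C(I01, E2) := fun q => ContinuousMap.const I01 q
  have hcst : ContDiff ℝ ∞ cst := IsBoundedLinearMap.contDiff
    ⟨⟨fun q r => by ext1 t; rfl, fun c q => by ext1 t; rfl⟩, 1, one_pos,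
      fun q => (ContinuousMap.norm_le _ (by positivity)).2 fun t => by simp [cst]⟩
  let F : (E2 × ℝ) × C(I01, E2) → C(I01, E2) := fun p =>
    p.2 - cst p.1.1 - p.1.2 • prim (N p.2)
  let u₀ : (E2 × ℝ) × C(I01, E2) := ((x₀, 0), cst x₀)
  have hF : ContDiff ℝ ∞ F := (contDiff_snd.sub (hcst.comp (contDiff_fst.comp contDiff_fst))).sub
    ((contDiff_snd.comp contDiff_fst).smul (contDiff_prim.comp (hN.comp contDiff_snd)))
  have hder : fderiv ℝ F u₀ ∘L .inr ℝ (E2 × ℝ) C(I01, E2) =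
      ContinuousLinearMap.id ℝ C(I01, E2) := by
    have h1 : HasFDerivAt (fun v : C(I01, E2) => F ((x₀, 0), v))
        (fderiv ℝ F u₀ ∘L .inr ℝ (E2 × ℝ) C(I01, E2)) (cst x₀) :=
      ((hF.differentiable hne).differentiableAt.hasFDerivAt (x := u₀)).comp (cst x₀)
        (hasFDerivAt_prodMk_right (x₀, (0 : ℝ)) (cst x₀))
    have h2 : HasFDerivAt (fun v : C(I01, E2) => F ((x₀, 0), v))
        (ContinuousLinearMap.id ℝ C(I01, E2)) (cst x₀) := by
      have : (fun v : C(I01, E2) => F ((x₀, 0), v)) = fun v => id v - cst x₀ := funext fun v => by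
        ext1 t
        show v t - x₀ - (0 : ℝ) • prim (N v) t = v t - x₀
        rw [zero_smul, sub_zero]
      rw [this]
      exact (hasFDerivAt_id (𝕜 := ℝ) (cst x₀)).sub_const (cst x₀)
    exact h1.unique h2
  have hinv : (fderiv ℝ F u₀ ∘L .inr ℝ (E2 × ℝ) C(I01, E2)).IsInvertible := by
    rw [hder]; exact ⟨ContinuousLinearEquiv.refl ℝ _, rfl⟩
  have hFa : ContDiffAt ℝ ∞ F u₀ := hF.contDiffAt
  let φ := hFa.implicitFunction hne hinv
  have hφ0 : φ (x₀, 0) = cst x₀ := hFa.implicitFunction_apply_self hne hinv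
  have hF0 : F u₀ = 0 := by
    ext1 t
    show x₀ - x₀ - (0 : ℝ) • prim (N (cst x₀)) t = 0
    simp
  have hcd : ∀ᶠ q in 𝓝 (x₀, (0 : ℝ)), ContDiffAt ℝ 1 φ q :=
    ((hFa.contDiffAt_implicitFunction hne hinv).of_le (by simp)).eventually (by simp)
  have hsol : ∀ᶠ q in 𝓝 (x₀, (0 : ℝ)), F (q, φ q) = 0 := by
    filter_upwards [hFa.eventually_apply_implicitFunction hne hinv] with q hq
    rw [hq, hF0]
  have hinvev : ∀ᶠ q in 𝓝 (x₀, (0 : ℝ)),
      (fderiv ℝ F (q, φ q) ∘L .inr ℝ (E2 × ℝ) C(I01, E2)).IsInvertible := by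
    have hc1 : ContinuousAt (fun q => fderiv ℝ F (q, φ q) ∘L .inr ℝ (E2 × ℝ) C(I01, E2))
        (x₀, (0 : ℝ)) :=
      ((hF.continuous_fderiv hne).clm_comp continuous_const).continuousAt.comp
        (continuousAt_id.prodMk (hFa.contDiffAt_implicitFunction hne hinv).continuousAt)
    refine hc1.preimage_mem_nhds (t := {A : C(I01, E2) →L[ℝ] C(I01, E2) | A.IsInvertible}) ?_
    rw [hφ0]
    exact (ContinuousLinearEquiv.isOpen.mem_nhds hinv :)
  refine ⟨φ, fun t => by rw [hφ0]; rfl, ?_⟩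
  filter_upwards [hinvev, hsol.eventually_nhds, hcd] with q hq hsolq hcdq
  have hsolat : F (q, φ q) = 0 := hsolq.self_of_nhds
  refine ⟨(hF.contDiffAt.contDiffAt_implicitFunction (u := (q, φ q)) hne hq).congr_of_eventuallyEq ?_,
    fun t => ?_⟩
  · have hcont : ContinuousAt (fun r => (r, φ r)) q := continuousAt_id.prodMk hcdq.continuousAt
    filter_upwards [hsolq, hcont.eventually
      (hF.contDiffAt.eventually_apply_eq_iff_implicitFunction (u := (q, φ q)) hne hq)] with r hr hr'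
    exact (hr'.1 (hr.trans hsolat.symm)).symm
  · have h := DFunLike.congr_fun hsolat t
    have h' : φ q t - q.1 - q.2 • ∫ s in (0 : ℝ)..(t : ℝ),
        e (φ q (Set.projIcc 0 1 zero_le_one s)) = 0 := h
    rwa [sub_sub, sub_eq_zero] at h'

/-- Injective operators of the plane form an open set. -/
lemma isOpen_injective : IsOpen {A : E2 →L[ℝ] E2 | Injective A} := by
  convert (isOpen_ne.preimage ContinuousLinearMap.continuous_det :
    IsOpen {A : E2 →L[ℝ] E2 | A.det ≠ 0}) using 1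
  ext A
  constructor
  · exact fun h h0 => (LinearMap.bot_lt_ker_of_det_eq_zero (f := A.toLinearMap) h0).ne'
      (LinearMap.ker_eq_bot.2 h)
  · intro h
    exact (LinearMap.equivOfDetNeZero A.toLinearMap h).injective

/-- The time derivative, off time zero. -/
lemma fderiv_time {K : NNReal} (hK : LipschitzWith K e) {ψ : E2 → C(I01, E2)} {τ : E2 → E2}
    {q : E2 → E2} (hτ : ∀ z, τ z = ψ z ⟨1, zero_le_one, le_rfl⟩)
    (hq : ∀ z w : E2, z 0 = w 0 → q z = q w) {r : ℝ} (hrK : r * K < 1)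
    (hd : ∀ z : E2, ‖z‖ < r → DifferentiableAt ℝ τ z ∧ IsSol e (q z) (z 1) (ψ z))
    {z : E2} (hz : 4 * ‖z‖ < r) (hz1 : z 1 ≠ 0) : fderiv ℝ τ z (ev 1) = e (τ z) := by
  have hzi : |z 1| ≤ ‖z‖ := by simpa [Real.norm_eq_abs] using PiLp.norm_apply_le z 1
  let L := 2 * z 1
  have hL0 : L ≠ 0 := mul_ne_zero two_ne_zero hz1
  let z2 : E2 := z + z 1 • ev 1
  have hz2 : ‖z2‖ < r := by
    calc ‖z2‖ ≤ ‖z‖ + ‖z 1 • ev 1‖ := norm_add_le _ _
      _ ≤ ‖z‖ + ‖z‖ := by gcongr; simpa [norm_smul, ev] using hzi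
      _ < r := by linarith [norm_nonneg z]
  let u := ψ z2
  have hu : IsSol e (q z) L u := by
    have h := (hd z2 hz2).2
    rwa [show z2 1 = L by simp [z2, L, ev]; ring, hq z2 z (by simp [z2, ev])] at h
  let g : ℝ → E2 := fun t => q z + L • ∫ s in (0 : ℝ)..t, e (u (Set.projIcc 0 1 zero_le_one s))
  have hug : ∀ t : I01, u t = g t := hu
  have hgd : ∀ t, HasDerivAt g (L • e (u (Set.projIcc 0 1 zero_le_one t))) t := fun t =>
    (((hK.continuous.comp (u.continuous.comp continuous_projIcc)).integral_hasStrictDerivAt 0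
      t).hasDerivAt.const_smul L).const_add _
  have hline : ∀ᶠ s in 𝓝 (0 : ℝ), τ (z + s • ev 1) = g ((z 1 + s) / L) := by
    have hc1 : Tendsto (fun s : ℝ => (z 1 + s) / L) (𝓝 0) (𝓝 (1 / 2)) := by
      have : Continuous fun s : ℝ => (z 1 + s) / L := by fun_prop
      convert this.tendsto 0 using 2
      simp only [L, add_zero]; field_simp
    have hc2 : Tendsto (fun s : ℝ => 4 * ‖z + s • ev 1‖) (𝓝 0) (𝓝 (4 * ‖z‖)) := by
      have : Continuous fun s : ℝ => 4 * ‖z + s • ev 1‖ := by fun_prop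
      convert this.tendsto 0 using 2
      simp
    filter_upwards [hc1.eventually (Ioo_mem_nhds (by norm_num : (0 : ℝ) < 1 / 2)
      (by norm_num : (1 / 2 : ℝ) < 1)), hc2.eventually (gt_mem_nhds hz)] with s hμ hs
    set μ := (z 1 + s) / L with hμdef
    have hl : L * μ = z 1 + s := by rw [hμdef]; field_simp
    have hv' : IsSol e (q z) (L * μ) (ψ (z + s • ev 1)) := by
      have h := (hd (z + s • ev 1) (by linarith [norm_nonneg (z + s • ev 1)])).2
      rwa [show (z + s • ev 1) 1 = L * μ by simp [ev, hl], hq _ z (by simp [ev])] at h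
    let v : C(I01, E2) := ⟨fun t => u (Set.projIcc 0 1 zero_le_one (μ * t)), by fun_prop⟩
    have hv : IsSol e (q z) (L * μ) v := hu.rescale ⟨hμ.1.le, hμ.2.le⟩ fun t => rfl
    have hK' : |L * μ| * K < 1 := by
      refine lt_of_le_of_lt (mul_le_mul_of_nonneg_right ?_ K.coe_nonneg) hrK
      rw [abs_mul, abs_of_pos hμ.1]
      calc |L| * μ ≤ |L| * 1 := by gcongr; exact hμ.2.le
        _ ≤ r := by rw [mul_one, abs_mul, abs_two]; linarith [norm_nonneg z]
    rw [hτ, IsSol.unique hK hK' hv' hv]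
    show u _ = _
    rw [hug, projIcc_of_mem _ (by simpa using ⟨hμ.1.le, hμ.2.le⟩)]
    simp
  have hd1 : HasDerivAt (fun s : ℝ => τ (z + s • ev 1)) (fderiv ℝ τ z (ev 1)) 0 := by
    refine (hd z (by linarith [norm_nonneg z])).1.hasFDerivAt.comp_hasDerivAt_of_eq 0 ?_ (by simp)
    simpa using ((hasDerivAt_id (0 : ℝ)).smul_const (ev 1)).const_add z
  have hm : (z 1 + 0) / L = 1 / 2 := by simp only [L, add_zero]; field_simp
  have h0 := hline.self_of_nhds
  rw [zero_smul, add_zero, hm] at h0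
  have hd2 : HasDerivAt (fun s : ℝ => g ((z 1 + s) / L)) (e (g (1 / 2))) 0 := by
    have h1 : HasDerivAt (fun s : ℝ => (z 1 + s) / L) (1 / L) 0 :=
      ((hasDerivAt_id (0 : ℝ)).const_add (z 1)).div_const L
    have h2 := (hgd ((z 1 + 0) / L)).scomp (0 : ℝ) h1
    rw [smul_smul, one_div_mul_cancel hL0, one_smul, hm,
      projIcc_of_mem _ (by norm_num : (1 / 2 : ℝ) ∈ Icc (0 : ℝ) 1), hug] at h2
    exact h2
  rw [h0]
  exact (hd1.congr_of_eventuallyEq (hline.mono fun _ h => h.symm)).unique hd2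

/-- A local straightening of `e` near a point where it is transversal to `n₀`. -/
theorem exists_straightening (he : ContDiff ℝ ∞ e) (hc : HasCompactSupport e)
    (x₀ n₀ : E2) (hind : ∀ s t : ℝ, s • n₀ + t • e x₀ = 0 → s = 0 ∧ t = 0) :
    ∃ τ : E2 → E2, τ 0 = x₀ ∧ ∀ᶠ z in 𝓝 (0 : E2), ContDiffAt ℝ ∞ τ z ∧
      Injective (fderiv ℝ τ z) ∧ fderiv ℝ τ z (ev 1) = e (τ z) := by
  have hne : (∞ : WithTop ℕ∞) ≠ 0 := by simp
  obtain ⟨K, hK⟩ := he.lipschitzWith_of_hasCompactSupport hc (by simp)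
  obtain ⟨φ, hφ0, hφ⟩ := exists_solution_family he hc x₀
  let P : E2 → E2 × ℝ := fun z => (x₀ + z 0 • n₀, z 1)
  have hP : ContDiff ℝ ∞ P := by fun_prop
  have hP0 : P 0 = (x₀, 0) := by simp [P]
  let t1 : I01 := ⟨1, zero_le_one, le_rfl⟩
  let τ : E2 → E2 := fun z => φ (P z) t1
  have hτ0 : τ 0 = x₀ := by simp [τ, hP0, hφ0]
  have hev1 : ContDiff ℝ ∞ fun v : C(I01, E2) => v t1 := IsBoundedLinearMap.contDiff
    ⟨⟨fun _ _ => rfl, fun _ _ => rfl⟩, 1, one_pos, fun v => by
      rw [one_mul]; exact v.norm_coe_le_norm t1⟩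
  have hgood : ∀ᶠ z in 𝓝 (0 : E2), ContDiffAt ℝ ∞ τ z ∧ IsSol e (P z).1 (z 1) (φ (P z)) := by
    have hPc : Tendsto P (𝓝 0) (𝓝 (x₀, 0)) := hP0 ▸ hP.continuous.continuousAt
    filter_upwards [hPc.eventually hφ] with z hz
    exact ⟨hev1.contDiffAt.comp z (hz.1.comp z hP.contDiffAt), hz.2⟩
  obtain ⟨r, hr, hball⟩ := Metric.eventually_nhds_iff.1 hgood
  let R : ℝ := min r ((K : ℝ) + 1)⁻¹
  have hR : 0 < R := by positivity
  have hRr : R ≤ r := min_le_left _ _
  have hRK : R * K < 1 := by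
    refine lt_of_le_of_lt (mul_le_mul_of_nonneg_right (min_le_right _ _) K.coe_nonneg) ?_
    rw [inv_mul_lt_iff₀ (by positivity)]
    linarith
  have hsm : ∀ z : E2, 4 * ‖z‖ < R → ContDiffAt ℝ ∞ τ z := fun z hz =>
    (hball (y := z) (by rw [dist_zero_right]; linarith [norm_nonneg z])).1
  have hodeall : ∀ z : E2, 4 * ‖z‖ < R → fderiv ℝ τ z (ev 1) = e (τ z) := by
    have hode : ∀ z : E2, 4 * ‖z‖ < R → z 1 ≠ 0 → fderiv ℝ τ z (ev 1) = e (τ z) := fun z hz hz1 =>
      fderiv_time hK (ψ := fun z => φ (P z)) (q := fun z => (P z).1) (fun _ => rfl)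
        (fun a b h => by simp [P, h]) hRK (fun w hw => by
          have h := hball (y := w) (by rw [dist_zero_right]; linarith)
          exact ⟨h.1.differentiableAt hne, h.2⟩) hz hz1
    intro z hz
    by_cases hz1 : z 1 = 0
    · have hlim : Tendsto (fun s : ℝ => z + s • ev 1) (𝓝[≠] 0) (𝓝 z) := by
        have : Continuous fun s : ℝ => z + s • ev 1 := by fun_prop
        exact (this.tendsto' 0 z (by simp)).mono_left nhdsWithin_le_nhds
      have hc : ContinuousAt (fun w => fderiv ℝ τ w (ev 1) - e (τ w)) z :=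
        (((hsm z hz).fderiv_right (m := 0) (by simp)).continuousAt.clm_apply continuousAt_const).sub
          (he.continuous.continuousAt.comp (hsm z hz).continuousAt)
      have hev : ∀ᶠ s in 𝓝[≠] (0 : ℝ), fderiv ℝ τ (z + s • ev 1) (ev 1) - e (τ (z + s • ev 1)) = 0 := by
        filter_upwards [hlim.eventually ((isOpen_lt (continuous_const.mul continuous_norm)
          continuous_const).mem_nhds hz), self_mem_nhdsWithin] with s hs hs0
        exact sub_eq_zero.2 (hode _ hs (by simpa [ev, hz1] using hs0))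
      exact sub_eq_zero.1 (tendsto_nhds_unique (hc.tendsto.comp hlim)
        (tendsto_nhds_of_eventually_eq hev))
    · exact hode z hz hz1
  have hinj0 : Injective (fderiv ℝ τ 0) := by
    rw [injective_iff_map_eq_zero]
    intro v hv
    have h1 : fderiv ℝ τ 0 (ev 1) = e x₀ := by rw [hodeall 0 (by simpa using hR), hτ0]
    have h0 : fderiv ℝ τ 0 (ev 0) = n₀ := by
      have hd : HasDerivAt (fun s : ℝ => τ (s • ev 0)) (fderiv ℝ τ 0 (ev 0)) 0 := by
        refine ((hgood.self_of_nhds.1.differentiableAt hne).hasFDerivAt).comp_hasDerivAt_of_eq 0 ?_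
          (by simp)
        simpa using (hasDerivAt_id (0 : ℝ)).smul_const (ev 0)
      have heq : (fun s : ℝ => τ (s • ev 0)) =ᶠ[𝓝 0] fun s => x₀ + s • n₀ := by
        have : Tendsto (fun s : ℝ => s • ev 0) (𝓝 0) (𝓝 (0 : E2)) :=
          (continuous_id.smul continuous_const).tendsto' 0 0 (by simp)
        filter_upwards [this.eventually hgood] with s hs
        have h := hs.2 t1
        simpa [τ, P, ev] using h
      have hd2 : HasDerivAt (fun s : ℝ => x₀ + s • n₀) n₀ 0 := by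
        simpa using ((hasDerivAt_id (0 : ℝ)).smul_const n₀).const_add x₀
      exact hd.unique (hd2.congr_of_eventuallyEq heq)
    have hexp : v = v 0 • ev 0 + v 1 • ev 1 := by
      ext i; fin_cases i <;> simp [ev]
    rw [hexp, map_add, map_smul, map_smul, h0, h1] at hv
    obtain ⟨ha, hb⟩ := hind _ _ hv
    rw [hexp, ha, hb]
    simp
  refine ⟨τ, hτ0, ?_⟩
  filter_upwards [hgood, ((hgood.self_of_nhds.1.fderiv_right (m := 0) (by simp)).continuousAt).eventually
    (isOpen_injective.mem_nhds hinj0),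
    Metric.ball_mem_nhds (0 : E2) (by positivity : 0 < R / 4)] with z h1 h2 h3
  exact ⟨h1.1, h2, hodeall z (by rw [mem_ball_zero_iff] at h3; linarith)⟩

end Vale.Agent.P205F.Patch
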