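import Vale.Agent.P205F.Interfaces
import Vale.Agent.P205F.Chart.Twisted
import Vale.Agent.P205F.Patch.Flow

/-!
# Flow boxes for the kernel of `ν`
-/

namespace Vale.Agent.P205F

open Set Function Filter
open scoped Manifold ContDiff Topology

lemma contDiff_nu {M : Type*} [TopologicalSpace M] [ChartedSpace E2 M] [IsManifold (𝓡 2) ∞ M]
    (h : Twisted M) (g : Metric M) (χ : Chart M) (i : Fin 2) :
    ContDiff ℝ ∞ fun z => h.nu g χ z i := by
  have hG := contDiff_gc g χ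
  have hd : ∀ j, ContDiff ℝ ∞ fun z => h.d χ z j := fun j =>
    ((contDiff_infty_iff_fderiv.1 (h.smooth χ)).2).clm_apply contDiff_const
  have hsq : ContDiff ℝ ∞ fun z => Real.sqrt (gc g χ z 0 * gc g χ z 2 - gc g χ z 1 ^ 2) :=
    (((hG 0).mul (hG 2)).sub ((hG 1).pow 2)).sqrt fun z => (gc_pos g χ z).2.2.ne'
  have hne : ∀ z, Real.sqrt (gc g χ z 0 * gc g χ z 2 - gc g χ z 1 ^ 2) ≠ 0 := fun z =>
    Real.sqrt_ne_zero'.2 (gc_pos g χ z).2.2
  fin_cases i
  · exact (((hG 0).mul (hd 1)).sub ((hG 1).mul (hd 0))).div hsq hne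
  · exact (((hG 1).mul (hd 1)).sub ((hG 2).mul (hd 0))).div hsq hne

lemma nu_ne_zero {M : Type*} [TopologicalSpace M] [ChartedSpace E2 M] [IsManifold (𝓡 2) ∞ M]
    (h : Twisted M) (g : Metric M) (χ : Chart M) (x : E2)
    (h0 : h.nu g χ x 0 = 0) (h1 : h.nu g χ x 1 = 0) : fderiv ℝ (h.h χ) x = 0 := by
  have hne : Real.sqrt (gc g χ x 0 * gc g χ x 2 - gc g χ x 1 ^ 2) ≠ 0 :=
    Real.sqrt_ne_zero'.2 (gc_pos g χ x).2.2
  simp [Twisted.nu, div_eq_zero_iff, hne] at h0 h1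
  have hΔ := (gc_pos g χ x).2.2
  have hd1 : (gc g χ x 0 * gc g χ x 2 - gc g χ x 1 ^ 2) * h.d χ x 1 = 0 := by
    linear_combination gc g χ x 2 * h0 - gc g χ x 1 * h1
  have hd0 : (gc g χ x 0 * gc g χ x 2 - gc g χ x 1 ^ 2) * h.d χ x 0 = 0 := by
    linear_combination gc g χ x 1 * h0 - gc g χ x 0 * h1
  ext v
  rw [apply_eq_pd, smul_eq_mul, smul_eq_mul]
  have e0 : pd 0 (h.h χ) x = 0 := (mul_eq_zero.1 hd0).resolve_left hΔ.ne'
  have e1 : pd 1 (h.h χ) x = 0 := (mul_eq_zero.1 hd1).resolve_left hΔ.ne'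
  simp [e0, e1]

universe u

theorem patchStmt : PatchStmt.{u} := by
  intro M _ _ _ _ _ g h V p hV hp hcrit
  obtain ⟨χ, x₀, rfl, hχV⟩ := Chart.exists_mem (hV.mem_nhds hp)
  let a : E2 → ℝ := fun z => h.nu g χ z 0
  let c : E2 → ℝ := fun z => h.nu g χ z 1
  have ha : ContDiff ℝ ∞ a := contDiff_nu h g χ 0
  have hc : ContDiff ℝ ∞ c := contDiff_nu h g χ 1
  let b : ContDiffBump x₀ := ⟨1, 2, one_pos, one_lt_two⟩
  let e : E2 → E2 := fun z => b z • ((-c z) • ev 0 + a z • ev 1)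
  have he : ContDiff ℝ ∞ e :=
    b.contDiff.smul ((hc.neg.smul contDiff_const).add (ha.smul contDiff_const))
  have hec : HasCompactSupport e := b.hasCompactSupport.smul_right
  have hb0 : b x₀ = 1 := b.one_of_mem_closedBall (by simpa using b.rIn_pos.le)
  have hker : ∀ z, a z * e z 0 + c z * e z 1 = 0 := fun z => by simp [e, ev]; ring
  have he0 : e x₀ ≠ 0 := by
    intro h0
    refine hcrit ((h.mem_crit_iff χ x₀).2 (nu_ne_zero h g χ x₀ ?_ ?_))
    · simpa [e, ev, hb0, a] using congrArg (fun y : E2 => y 1) h0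
    · simpa [e, ev, hb0, c] using congrArg (fun y : E2 => y 0) h0
  let n₀ : E2 := a x₀ • ev 0 + c x₀ • ev 1
  have hind : ∀ s t : ℝ, s • n₀ + t • e x₀ = 0 → s = 0 ∧ t = 0 := by
    intro s t hst
    have h0 := congrArg (fun y : E2 => y 0) hst
    have h1 := congrArg (fun y : E2 => y 1) hst
    simp [n₀, e, ev, hb0] at h0 h1
    have hpos : 0 < a x₀ ^ 2 + c x₀ ^ 2 := by
      by_contra hle
      have hax : a x₀ = 0 := by nlinarith [sq_nonneg (a x₀), sq_nonneg (c x₀)]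
      have hcx : c x₀ = 0 := by nlinarith [sq_nonneg (a x₀), sq_nonneg (c x₀)]
      exact he0 (by simp [e, hax, hcx])
    refine ⟨?_, ?_⟩
    · have : (a x₀ ^ 2 + c x₀ ^ 2) * s = 0 := by linear_combination a x₀ * h0 + c x₀ * h1
      exact (mul_eq_zero.1 this).resolve_left hpos.ne'
    · have : (a x₀ ^ 2 + c x₀ ^ 2) * t = 0 := by linear_combination a x₀ * h1 - c x₀ * h0
      exact (mul_eq_zero.1 this).resolve_left hpos.ne'
  obtain ⟨τ, hτ0, hτ⟩ := Patch.exists_straightening he hec x₀ n₀ hind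
  -- a neighbourhood where `τ` is injective
  obtain ⟨hτc, hτinj, -⟩ := hτ.self_of_nhds
  let A : E2 ≃L[ℝ] E2 :=
    (LinearEquiv.ofInjectiveEndo (fderiv ℝ τ 0).toLinearMap hτinj).toContinuousLinearEquiv
  have hA : HasFDerivAt τ (A : E2 →L[ℝ] E2) 0 := by
    refine ((hτc.differentiableAt infty_ne_zero).hasFDerivAt).congr_fderiv ?_
    ext v
    simp [A]
  have hst := hτc.hasStrictFDerivAt' hA infty_ne_zero
  obtain ⟨S, hS, hSinj⟩ : ∃ S ∈ 𝓝 (0 : E2), InjOn τ S :=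
    ⟨_, (hst.toOpenPartialHomeomorph τ).open_source.mem_nhds
      hst.mem_toOpenPartialHomeomorph_source, by
        simpa using (hst.toOpenPartialHomeomorph τ).injOn⟩
  obtain ⟨σ, hσ, hσ0, hσv⟩ := exists_shrink_vertical (inter_mem hτ hS)
  have hσd : ContDiff ℝ ∞ σ.toFun := σ.smooth.contDiff
  have hmem : ∀ z, ContDiffAt ℝ ∞ τ (σ.toFun z) ∧ Injective (fderiv ℝ τ (σ.toFun z)) ∧
      fderiv ℝ τ (σ.toFun z) (ev 1) = e (τ (σ.toFun z)) := fun z => (hσ ⟨z, rfl⟩).1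
  let F : E2 → E2 := fun z => τ (σ.toFun z)
  have hF : ContDiff ℝ ∞ F :=
    contDiff_iff_contDiffAt.2 fun z => (hmem z).1.comp z hσd.contDiffAt
  have hFinj : Injective F := fun z w hzw =>
    σ.injective (hSinj (hσ ⟨z, rfl⟩).2 (hσ ⟨w, rfl⟩).2 hzw)
  have hσdinj : ∀ z, Injective (fderiv ℝ σ.toFun z) := fun z u v huv => by
    have := σ.mfderiv_injective z
    rw [mfderiv_eq_fderiv] at this
    exact this huv
  have hFd : ∀ z, fderiv ℝ F z = (fderiv ℝ τ (σ.toFun z)).comp (fderiv ℝ σ.toFun z) := fun z =>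
    fderiv_comp z ((hmem z).1.differentiableAt infty_ne_zero)
      (hσd.differentiable infty_ne_zero).differentiableAt
  obtain ⟨F', hF'⟩ := exists_chart_of_injective hF hFinj fun z => by
    rw [hFd z]; exact (hmem z).2.1.comp (hσdinj z)
  let ψ : Chart M := χ.comp F'
  refine ⟨ψ, ⟨0, ?_⟩, (χ.range_comp_subset F').trans hχV, fun x => ?_⟩
  · show χ.toFun (F'.toFun 0) = _
    rw [hF']
    show χ.toFun (τ (σ.toFun 0)) = _
    rw [hσ0.eq_of_nhds, id, hτ0]
  have hx : ψ.toFun x ∈ range χ.toFun := ⟨F'.toFun x, rfl⟩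
  have htr : χ.trans ψ = F := by
    funext z
    show χ.inv (χ.toFun (F'.toFun z)) = F z
    rw [χ.left_inv, hF']
  have hnu := h.nu_change g χ ψ hx (ev 1)
  rw [htr] at hnu
  have hv : fderiv ℝ F x (ev 1) = fderiv ℝ σ.toFun x (ev 1) 1 • e (F x) := by
    rw [hFd x, ContinuousLinearMap.comp_apply]
    conv_lhs => rw [hσv x]
    rw [map_smul, (hmem x).2.2]
  rw [hv] at hnu
  simp [ev] at hnu
  rw [hnu]
  have := hker (F x)
  simp only [a, c] at this
  simp only [ev] at *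
  linear_combination (fderiv ℝ σ.toFun x (EuclideanSpace.single 1 1) 1) * this

end Vale.Agent.P205F
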