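import Vale.Agent.P205F.Defs

/-!
# Superposition with a smooth compactly supported map is smooth on continuous curves
-/

namespace Vale.Agent.P205F.Patch

open Set Function Filter
open scoped ContDiff Topology

/-- The time interval. -/
abbrev I01 : Type := Set.Icc (0 : ℝ) 1

variable {Y : Type} [NormedAddCommGroup Y] [NormedSpace ℝ Y]

/-- Pointwise application of a curve of operators to a curve. -/
noncomputable def applyL : C(I01, E2 →L[ℝ] Y) →L[ℝ] C(I01, E2) →L[ℝ] C(I01, Y) :=
  LinearMap.mkContinuous₂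
    (LinearMap.mk₂ ℝ (fun (A : C(I01, E2 →L[ℝ] Y)) (v : C(I01, E2)) =>
        (⟨fun t => A t (v t), A.continuous.clm_apply v.continuous⟩ : C(I01, Y)))
      (fun A B v => by ext t; rfl) (fun c A v => by ext t; rfl)
      (fun A v w => by ext t; exact (A t).map_add _ _) (fun c A v => by ext t; exact (A t).map_smul _ _))
    1 fun A v => (ContinuousMap.norm_le _ (by positivity)).2 fun t => by
      rw [one_mul]
      exact ((A t).le_opNorm _).trans (mul_le_mul (A.norm_coe_le_norm t) (v.norm_coe_le_norm t)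
        (norm_nonneg _) (norm_nonneg A))

@[simp] lemma applyL_apply (A : C(I01, E2 →L[ℝ] Y)) (v : C(I01, E2)) (t : I01) :
    applyL A v t = A t (v t) := rfl

lemma hasFDerivAt_comp (e : E2 → Y) (he : ContDiff ℝ ∞ e) (hc : HasCompactSupport e)
    (u : C(I01, E2)) :
    HasFDerivAt (fun v : C(I01, E2) => (⟨e, he.continuous⟩ : C(E2, Y)).comp v)
      (applyL ((⟨fderiv ℝ e, he.continuous_fderiv (by simp)⟩ : C(E2, E2 →L[ℝ] Y)).comp u)) u := by
  have hd : ContDiff ℝ ∞ (fderiv ℝ e) := (contDiff_infty_iff_fderiv.1 he).2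
  obtain ⟨C, hC⟩ := hd.lipschitzWith_of_hasCompactSupport (hc.fderiv ℝ) (by simp)
  rw [hasFDerivAt_iff_isLittleO_nhds_zero]
  have hb : ∀ v : C(I01, E2),
      ‖(⟨e, he.continuous⟩ : C(E2, Y)).comp (u + v) - (⟨e, he.continuous⟩ : C(E2, Y)).comp u
        - applyL ((⟨fderiv ℝ e, he.continuous_fderiv (by simp)⟩ : C(E2, E2 →L[ℝ] Y)).comp u) v‖
      ≤ (C : ℝ) * ‖v‖ * ‖v‖ := by
    intro v
    refine (ContinuousMap.norm_le _ (by positivity)).2 fun t => ?_
    show ‖e (u t + v t) - e (u t) - fderiv ℝ e (u t) (v t)‖ ≤ _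
    have hv := v.norm_coe_le_norm t
    have h := Convex.norm_image_sub_le_of_norm_hasFDerivWithin_le' (f := e) (f' := fderiv ℝ e)
      (φ := fderiv ℝ e (u t)) (C := (C : ℝ) * ‖v‖) (s := Metric.closedBall (u t) ‖v‖)
      (fun x _ => (he.differentiable (by simp)).differentiableAt.hasFDerivAt.hasFDerivWithinAt)
      (fun x hx => (hC.norm_sub_le x (u t)).trans
        (mul_le_mul_of_nonneg_left (mem_closedBall_iff_norm.1 hx) C.coe_nonneg))
      (convex_closedBall _ _) (Metric.mem_closedBall_self (norm_nonneg _))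
      (y := u t + v t) (by simpa [mem_closedBall_iff_norm] using hv)
    rw [add_sub_cancel_left] at h
    exact h.trans (mul_le_mul_of_nonneg_left hv (by positivity))
  refine Asymptotics.IsBigO.trans_isLittleO (g := fun v : C(I01, E2) => ‖v‖ ^ 2)
    (Asymptotics.IsBigO.of_bound (C : ℝ) (Eventually.of_forall fun v => ?_)) ?_
  · simpa [pow_two, mul_assoc] using hb v
  · simpa using Asymptotics.isLittleO_norm_pow_id (n := 2) (E' := C(I01, E2)) (by norm_num)

lemma contDiff_comp_nat : ∀ (n : ℕ) {Y : Type} [NormedAddCommGroup Y] [NormedSpace ℝ Y]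
    (e : E2 → Y) (he : ContDiff ℝ ∞ e), HasCompactSupport e →
    ContDiff ℝ n fun v : C(I01, E2) => (⟨e, he.continuous⟩ : C(E2, Y)).comp v := by
  intro n
  induction n with
  | zero =>
    intro Y _ _ e he _
    exact contDiff_zero.2 (ContinuousMap.continuous_postcomp _)
  | succ n ih =>
    intro Y _ _ e he hc
    rw [Nat.cast_succ]
    refine contDiff_succ_iff_hasFDerivAt.2 ⟨fun u => applyL ((⟨fderiv ℝ e,
      (contDiff_infty_iff_fderiv.1 he).2.continuous⟩ : C(E2, E2 →L[ℝ] Y)).comp u),
      ?_,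
      fun u => hasFDerivAt_comp e he hc u⟩
    have hA : ContDiff ℝ n fun A : C(I01, E2 →L[ℝ] Y) => applyL A :=
      IsBoundedLinearMap.contDiff ⟨⟨fun A B => map_add applyL A B, fun c A => map_smul applyL c A⟩,
        1, one_pos, fun A => (applyL A).opNorm_le_bound (by positivity) fun v =>
          (ContinuousMap.norm_le _ (by positivity)).2 fun t => by
            rw [applyL_apply, one_mul]
            exact ((A t).le_opNorm _).trans (mul_le_mul (A.norm_coe_le_norm t)
              (v.norm_coe_le_norm t) (norm_nonneg _) (norm_nonneg A))⟩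
    exact hA.comp (ih (fderiv ℝ e) (contDiff_infty_iff_fderiv.1 he).2 (hc.fderiv ℝ))

/-- Superposition is smooth. -/
theorem contDiff_comp (e : E2 → Y) (he : ContDiff ℝ ∞ e) (hc : HasCompactSupport e) :
    ContDiff ℝ ∞ fun v : C(I01, E2) => (⟨e, he.continuous⟩ : C(E2, Y)).comp v :=
  contDiff_infty.2 fun n => contDiff_comp_nat n e he hc

end Vale.Agent.P205F.Patch
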